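import Vale.Agent.P329.SmallStars

/-! Height-one expressions need stars of unbounded automaton size. -/

namespace Vale.Agent.Results.P329.BoundedStarsInsufficient

open Vale.Agent.P329

/-- For every `k` some regular two-letter language of height at most one has no expression, of any
height, whose starred subexpressions all denote languages of `k`-state automata. -/
theorem result (k : ℕ) :
    ∃ L : Language Bool, L.IsRegular ∧ HeightLE 1 L ∧
      ∀ P : GenExpr Bool, P.lang = L → ¬ SmallStars k P :=
  exists_height_one_without_small_stars k

end Vale.Agent.Results.P329.BoundedStarsInsufficient
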