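import Vale.Agent.P329.OneStar

/-! One starred star-free language decides height one for monolithic non-abelian group languages. -/

namespace Vale.Agent.Results.P329.OneStarCriterion

open Vale.Agent.P329 Vale.Agent.P329.SmallStarProof

/-- A language with syntactic monoid a group in which two commuting normal subgroups are never both
nontrivial has height at most one iff the syntactic congruence of some `K*`, with `K` star-free,
refines its own; the groups `S_n`, `n ≥ 5`, qualify. -/
theorem result :
    (∀ (α G : Type) [Group G] [Finite G], Separating G → 3 < Nat.card G →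
      ∀ π : List α → G, (∀ u v, π (u ++ v) = π u * π v) → Function.Surjective π →
        ∀ S : Set G, (∀ g h : G, g ≠ h → ∃ a b : G, ¬ (a * g * b ∈ S ↔ a * h * b ∈ S)) →
          (HeightLE 1 (lset fun w => π w ∈ S) ↔
            ∃ K : Language α, HeightLE 0 K ∧
              ∀ u v, SynEq (KStar.kstar K) u v → π u = π v)) ∧
    ∀ n : ℕ, 5 ≤ n → Separating (Equiv.Perm (Fin n)) ∧ 3 < Nat.card (Equiv.Perm (Fin n)) :=
  ⟨fun _ _ _ _ hG hc π hπ hs S hS => heightLE_one_iff_single_star hG hc π hπ hs S hS,
    fun n hn => ⟨separating_perm n hn, by
      rw [Nat.card_perm, Nat.card_fin]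
      have := Nat.self_le_factorial n
      omega⟩⟩

end Vale.Agent.Results.P329.OneStarCriterion
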