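import Vale.Agent.P329.Forward

/-! Word languages of symmetric groups of generalised star height at most one. -/

namespace Vale.Agent.Results.P329.SymmetricGroupHeightOne

open Vale.Agent.P329

/-- For every `n = k + 2`, a two-letter morphism onto `S_n` all of whose recognised languages
have height at most one, and whose identity language has syntactic congruence equal to its
kernel. -/
theorem result (k : ℕ) :
    Function.Surjective (wordPerm k) ∧
      (∀ X : Set (Equiv.Perm (Fin (k + 2))),
        ∃ P : GenExpr Bool, P.height ≤ 1 ∧
          ∀ w, w ∈ P.lang ↔ wordPerm k w ∈ X) ∧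
      (∀ u v : List Bool,
        (∀ p q : List Bool, wordPerm k (p ++ u ++ q) = 1 ↔ wordPerm k (p ++ v ++ q) = 1) →
          wordPerm k u = wordPerm k v) := by
  refine ⟨wordPerm_surjective, fun X => ?_, fun u v h => wordPerm_syntactic h⟩
  obtain ⟨P, h1, h2⟩ := heightLE_wordPerm (k := k) X
  exact ⟨P, h1, fun w => by rw [h2]; exact Iff.rfl⟩

end Vale.Agent.Results.P329.SymmetricGroupHeightOne
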